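import Mathlib

namespace Vale.Agent.P369

/-- occupation-number lists of `n` modes -/
abbrev Occ (n : ℕ) : Type := Fin n → ℕ

section

variable {ι H : Type} [NormedAddCommGroup H] [InnerProductSpace ℂ H] [CompleteSpace H]

/-- the coordinate `⟨k|ψ⟩` in the orthonormal basis `e` -/
noncomputable def coord (e : HilbertBasis ι ℂ H) (ψ : H) (k : ι) : ℂ := inner ℂ (e k) ψ

/-- the matrix element `⟨k|T|l⟩` in the orthonormal basis `e` -/
noncomputable def mel (e : HilbertBasis ι ℂ H) (T : H →L[ℂ] H) (k l : ι) : ℂ :=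
  coord e (T (e l)) k

/-- density operators: positive, with trace one -/
def IsDensity (e : HilbertBasis ι ℂ H) (ρ : H →L[ℂ] H) : Prop :=
  ρ.IsPositive ∧ HasSum (fun k => mel e ρ k k) 1

/-- the operator `-ρ log ρ`, by the continuous functional calculus -/
noncomputable def negMulLogOp (ρ : H →L[ℂ] H) : H →L[ℂ] H := cfc Real.negMulLog ρ

/-- von Neumann entropy `Tr (-ρ log ρ)` -/
noncomputable def entropy (e : HilbertBasis ι ℂ H) (ρ : H →L[ℂ] H) : ℝ :=
  ∑' k, (mel e (negMulLogOp ρ) k k).re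

/-- finite mean photon number: `Tr ρ ∑ⱼ aⱼ† aⱼ < ∞` (`e` is the number basis) -/
def FiniteEnergy {n : ℕ} (e : HilbertBasis (Occ n) ℂ H) (ρ : H →L[ℂ] H) : Prop :=
  Summable fun k : Occ n => (∑ j, (k j : ℝ)) * (mel e ρ k k).re

/-- `U X U†` -/
noncomputable def conjBy (U X : H →L[ℂ] H) : H →L[ℂ] H := U * X * star U

/-- `U` is unitary -/
def IsUnitaryOp (U : H →L[ℂ] H) : Prop := U ∈ unitary (H →L[ℂ] H)

end

/-- `g(t) = (t+1) log (t+1) - t log t` -/
noncomputable def g (t : ℝ) : ℝ := (t + 1) * Real.log (t + 1) - t * Real.log t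

/-- the annihilation operator `aⱼ` of the first group of modes, on coordinates -/
noncomputable def annA {n : ℕ} (j : Fin n) (ψ : Occ n × Occ n → ℂ) (x : Occ n × Occ n) : ℂ :=
  (√((x.1 j : ℝ) + 1) : ℝ) * ψ (x.1 + Pi.single j 1, x.2)

/-- the annihilation operator `bⱼ` of the second group of modes, on coordinates -/
noncomputable def annB {n : ℕ} (j : Fin n) (ψ : Occ n × Occ n → ℂ) (x : Occ n × Occ n) : ℂ :=
  (√((x.2 j : ℝ) + 1) : ℝ) * ψ (x.1, x.2 + Pi.single j 1)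

section

variable {n : ℕ} {H H₂ : Type} [NormedAddCommGroup H] [InnerProductSpace ℂ H] [CompleteSpace H]
  [NormedAddCommGroup H₂] [InnerProductSpace ℂ H₂] [CompleteSpace H₂]

/-- `aⱼ U ψ = U (s aⱼ + t bⱼ) ψ` for all `j` and all finitely supported `ψ` -/
def IntertwinesA (e : HilbertBasis (Occ n × Occ n) ℂ H₂) (U : H₂ →L[ℂ] H₂) (s t : ℝ) : Prop :=
  ∀ (j : Fin n) (ψ φ : H₂), (Function.support (coord e ψ)).Finite →
    (∀ x, coord e φ x = s * annA j (coord e ψ) x + t * annB j (coord e ψ) x) →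
      ∀ x, annA j (coord e (U ψ)) x = coord e (U φ) x

/-- `bⱼ U ψ = U (s aⱼ + t bⱼ) ψ` for all `j` and all finitely supported `ψ` -/
def IntertwinesB (e : HilbertBasis (Occ n × Occ n) ℂ H₂) (U : H₂ →L[ℂ] H₂) (s t : ℝ) : Prop :=
  ∀ (j : Fin n) (ψ φ : H₂), (Function.support (coord e ψ)).Finite →
    (∀ x, coord e φ x = s * annA j (coord e ψ) x + t * annB j (coord e ψ) x) →
      ∀ x, annB j (coord e (U ψ)) x = coord e (U φ) x

/-- the beam splitter of transmissivity `η`: unitary, fixes the vacuum,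
`U† aⱼ U = √η aⱼ + √(1-η) bⱼ` and `U† bⱼ U = -√(1-η) aⱼ + √η bⱼ` -/
def IsBeamSplitter (e : HilbertBasis (Occ n × Occ n) ℂ H₂) (η : ℝ) (U : H₂ →L[ℂ] H₂) : Prop :=
  IsUnitaryOp U ∧ U (e (0, 0)) = e (0, 0) ∧
    IntertwinesA e U (√η) (√(1 - η)) ∧ IntertwinesB e U (-√(1 - η)) (√η)

/-- `W = A ⊗ B` -/
def IsTensor (e : HilbertBasis (Occ n) ℂ H) (e₂ : HilbertBasis (Occ n × Occ n) ℂ H₂)
    (A B : H →L[ℂ] H) (W : H₂ →L[ℂ] H₂) : Prop :=
  ∀ k l k' l' : Occ n, mel e₂ W (k, l) (k', l') = mel e A k k' * mel e B l l'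

/-- `C` is the trace of `X` over the second group of modes -/
def IsTraceOverB (e : HilbertBasis (Occ n) ℂ H) (e₂ : HilbertBasis (Occ n × Occ n) ℂ H₂)
    (X : H₂ →L[ℂ] H₂) (C : H →L[ℂ] H) : Prop :=
  ∀ k k' : Occ n, HasSum (fun l => mel e₂ X (k, l) (k', l)) (mel e C k k')

end

end Vale.Agent.P369
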